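import Vale.Agent.P011.H896.IntDet
import Vale.Agent.P011.Even.Completion
import Vale.Agent.P011.Even.Defs

/-!
At almost every finite place which splits the algebra but not the centre, the reduced norm of
a fixed element is up to sign a norm from the centre.
-/

open NumberField IsDedekindDomain Polynomial TensorProduct Module

namespace Vale.Agent.P011.H896

open Vale.Agent.P011.Even Vale.Agent.P011.Arith

variable {k : Type} [Field k] [NumberField k]

/-- At a nondyadic place where `d` is a unit all units are norms of `√d`. -/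
theorem loc_norm {v : HeightOneSpectrum (𝓞 k)} (h2 : v.valuation k (2 : k) = 1) {d : kˣ}
    (hd : v.valuation k (d : k) = 1) {c : v.adicCompletion k} (hc : (Valued.v c : Z0) = 1) :
    ∃ x y : v.adicCompletion k, c = x ^ 2 - algebraMap k (v.adicCompletion k) (d : k) * y ^ 2 := by
  have hc0 : c ≠ 0 := by
    rintro rfl
    rw [map_zero] at hc
    exact zero_ne_one hc
  obtain ⟨a, u, h⟩ := exists_global' v (Units.mk0 c hc0)
  have hcu : c = algebraMap k (v.adicCompletion k) (a : k) * (u : v.adicCompletion k) ^ 2 := by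
    have h1 := congrArg (Units.val) h
    rwa [Units.val_mk0, Units.val_mul, Units.val_pow_eq_pow_val, iu_val] at h1
  have hvu : (Valued.v (u : v.adicCompletion k) : Z0) ≠ 0 :=
    (Valuation.ne_zero_iff _).mpr u.ne_zero
  have hva : v.valuation k (a : k) * (Valued.v (u : v.adicCompletion k) : Z0) ^ 2 = 1 := by
    rw [← valued_alg v (a : k), ← map_pow, ← map_mul, ← hcu, hc]
  have hexp : v.valuation k (a : k) =
      WithZero.exp (2 * (-(WithZero.log (Valued.v (u : v.adicCompletion k) : Z0)))) := by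
    have h3 : (Valued.v (u : v.adicCompletion k) : Z0) =
        WithZero.exp (WithZero.log (Valued.v (u : v.adicCompletion k) : Z0)) :=
      (WithZero.exp_log hvu).symm
    rw [h3, ← WithZero.exp_nsmul] at hva
    rw [eq_comm, ← mul_left_inj' (WithZero.exp_ne_zero
      (a := 2 • WithZero.log (Valued.v (u : v.adicCompletion k) : Z0))), hva, ← WithZero.exp_add,
      ← WithZero.exp_zero]
    congr 1
    rw [nsmul_eq_mul]
    push_cast
    ring
  have h4 : d ∈ NF a ⊔ LS (v.valuation k) := unit_norm_even h2 hexp hd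
  have h5 : a ∈ NF d ⊔ LS (v.valuation k) := mem_symm a d h4
  have h6 : Units.mk0 c hc0 ∈ LN (iu v d) := by
    rw [h]
    exact mul_mem ((mem_LN_iff v d a).mpr h5) (sq_mem_LN _ _)
  obtain ⟨x, y, hxy⟩ := h6
  exact ⟨x, y, hxy⟩

/-- The coefficients of a polynomial are integral at almost all places. -/
theorem finite_coeff (p : k[X]) :
    {v : HeightOneSpectrum (𝓞 k) | ∃ i, ¬ v.valuation k (p.coeff i) ≤ 1}.Finite := by
  have h1 : {v : HeightOneSpectrum (𝓞 k) | ∃ i, ¬ v.valuation k (p.coeff i) ≤ 1} ⊆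
      ⋃ i ∈ p.support, {v : HeightOneSpectrum (𝓞 k) | v.valuation k (p.coeff i) ≠ 1} := by
    rintro v ⟨i, hi⟩
    refine Set.mem_iUnion₂.mpr ⟨i, ?_, fun h => hi h.le⟩
    rw [Polynomial.mem_support_iff]
    intro h0
    apply hi
    rw [h0, map_zero]
    exact zero_le
  refine Set.Finite.subset ?_ h1
  refine Set.Finite.biUnion p.support.finite_toSet fun i hi => ?_
  exact finite_valuation_ne_one _ (Polynomial.mem_support_iff.mp hi)

variable {K D : Type} [Field K] [StarRing K] [DivisionRing D] [StarRing D] [Algebra k K]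
  [Algebra k D] [Algebra K D] [IsScalarTower k K D] {d : kˣ} {s : K}

/-- At almost every finite place at which the algebra is a matrix algebra over a quadratic
extension, the determinant of a fixed element of the algebra is up to sign a norm from this
extension as soon as it is up to sign in the base field. -/
theorem dbl_det {n : ℕ} (hS : Setting k K D d s) (hn : finrank K D = n ^ 2) {j : D}
    (hj : j ≠ 0) : ∃ S : Set (HeightOneSpectrum (𝓞 k)), S.Finite ∧ ∀ v ∉ S,
      ∀ (E : Type) [Field E] [Algebra (v.adicCompletion k) E] [StarRing E],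
      (∀ x : E, star x = x ↔ x ∈ Set.range (algebraMap (v.adicCompletion k) E)) →
      finrank (v.adicCompletion k) E = 2 →
      ∀ ρ : v.adicCompletion k ⊗[k] D ≃ₐ[v.adicCompletion k] Matrix (Fin n) (Fin n) E,
      ∀ c : v.adicCompletion k,
      (algebraMap (v.adicCompletion k) E c = (ρ (1 ⊗ₜ[k] j)).det ∨
        algebraMap (v.adicCompletion k) E c = -(ρ (1 ⊗ₜ[k] j)).det) →
      ∃ z : E, z * star z = algebraMap (v.adicCompletion k) E c := by
  have hfinK : FiniteDimensional k K := .of_finrank_pos (by rw [hS.rank]; norm_num)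
  have hfinD : FiniteDimensional K D := hS.fin
  have hfin : FiniteDimensional k D := FiniteDimensional.trans k K D
  have hn0 : 0 < n := by
    rcases Nat.eq_zero_or_pos n with h | h
    · rw [h] at hn
      have := Module.finrank_pos (R := K) (M := D)
      omega
    · exact h
  have hji : IsIntegral k j := Algebra.IsIntegral.isIntegral j
  have hji' : IsIntegral k j⁻¹ := Algebra.IsIntegral.isIntegral j⁻¹
  set p := minpoly k j with hp
  set q := minpoly k j⁻¹ with hq
  have hcen : ∀ x : D, algebraMap K D s * x = x * algebraMap K D s := fun x =>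
    Algebra.commutes s x
  have hsq : (algebraMap K D s) ^ 2 = algebraMap k D (d : k) := by
    rw [← map_pow, hS.sq, ← IsScalarTower.algebraMap_apply]
  have hns : algebraMap K D s ∉ Set.range (algebraMap k D) := by
    rintro ⟨r, hr⟩
    rw [← hr, ← map_pow] at hsq
    exact hS.ns ⟨r, by rw [← sq]; exact ((algebraMap k D).injective hsq).symm⟩
  refine ⟨{v | v.valuation k (2 : k) ≠ 1} ∪ {v | v.valuation k (d : k) ≠ 1} ∪
    {v | ∃ i, ¬ v.valuation k (p.coeff i) ≤ 1} ∪ {v | ∃ i, ¬ v.valuation k (q.coeff i) ≤ 1},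
    ?_, ?_⟩
  · exact (((finite_valuation_ne_one _ two_ne_zero).union
      (finite_valuation_ne_one _ d.ne_zero)).union (finite_coeff p)).union (finite_coeff q)
  intro v hv E _ _ _ hfix _ ρ c hc
  simp only [Set.mem_union, Set.mem_ofPred_eq, not_or, not_exists, not_not] at hv
  obtain ⟨⟨⟨hv2, hvd⟩, hvp⟩, hvq⟩ := hv
  obtain ⟨e, he2, hse⟩ := exists_skew hcen hsq hns hfix hn0 ρ
  -- the valuation of `c`
  have hMM : ρ (1 ⊗ₜ[k] j) * ρ (1 ⊗ₜ[k] j⁻¹) = 1 := by
    rw [← map_mul, Algebra.TensorProduct.tmul_mul_tmul, one_mul, mul_inv_cancel₀ hj,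
      ← Algebra.TensorProduct.one_def, map_one]
  have hdd : (ρ (1 ⊗ₜ[k] j)).det * (ρ (1 ⊗ₜ[k] j⁻¹)).det = 1 := by
    rw [← Matrix.det_mul, hMM, Matrix.det_one]
  have haev : ∀ (x : D) (f : k[X]), aeval x f = 0 →
      aeval (ρ (1 ⊗ₜ[k] x)) (f.map (algebraMap k (v.adicCompletion k))) = 0 := by
    intro x f hf
    change aeval (ρ.toAlgHom (1 ⊗ₜ[k] x)) (f.map (algebraMap k (v.adicCompletion k))) = 0
    rw [aeval_algHom_apply, aeval_map_algebraMap]
    have h1 : aeval ((1 : v.adicCompletion k) ⊗ₜ[k] x) f =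
        Algebra.TensorProduct.includeRight (aeval x f) := by
      rw [← aeval_algHom_apply]
      rfl
    rw [h1, hf, map_zero, map_zero]
  have hval : ∀ (x : D), x ≠ 0 → IsIntegral k x →
      (∀ i, v.valuation k ((minpoly k x).coeff i) ≤ 1) → ∀ c' : v.adicCompletion k,
      (algebraMap (v.adicCompletion k) E c' = (ρ (1 ⊗ₜ[k] x)).det) →
      (Valued.v c' : Z0) ≤ 1 := by
    intro x _ hx hcx c' hc'
    refine val_det_le (Valued.v : Valuation (v.adicCompletion k) Z0) (ρ (1 ⊗ₜ[k] x))
      ((minpoly.monic hx).map (algebraMap k (v.adicCompletion k))) (fun i => ?_)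
      (haev x _ (minpoly.aeval k x)) hc'
    rw [coeff_map, valued_alg]
    exact hcx i
  obtain ⟨c0, hc0, hcc⟩ : ∃ c0 : v.adicCompletion k,
      algebraMap (v.adicCompletion k) E c0 = (ρ (1 ⊗ₜ[k] j)).det ∧
      (Valued.v c : Z0) = Valued.v c0 := by
    rcases hc with h | h
    · exact ⟨c, h, rfl⟩
    · exact ⟨-c, by rw [map_neg, h, neg_neg], by rw [Valuation.map_neg]⟩
  have hc0' : c0 ≠ 0 := by
    rintro rfl
    rw [map_zero] at hc0
    rw [← hc0, zero_mul] at hdd
    exact zero_ne_one hdd
  have hc1 : algebraMap (v.adicCompletion k) E c0⁻¹ = (ρ (1 ⊗ₜ[k] j⁻¹)).det := by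
    rw [map_inv₀, hc0]
    exact (eq_inv_of_mul_eq_one_right hdd).symm
  have hle := hval j hj hji hvp c0 hc0
  have hle' := hval j⁻¹ (inv_ne_zero hj) hji' hvq c0⁻¹ hc1
  have hone : (Valued.v c0 : Z0) = 1 := by
    refine le_antisymm hle ?_
    rw [map_inv₀] at hle'
    exact (inv_le_one₀ (zero_lt_iff.mpr ((Valuation.ne_zero_iff _).mpr hc0'))).mp hle'
  obtain ⟨x, y, hxy⟩ := loc_norm hv2 hvd (hcc.trans hone)
  refine ⟨algebraMap _ E x + algebraMap _ E y * e, ?_⟩
  have hx : star (algebraMap (v.adicCompletion k) E x) = algebraMap _ E x :=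
    (hfix _).mpr ⟨x, rfl⟩
  have hy : star (algebraMap (v.adicCompletion k) E y) = algebraMap _ E y :=
    (hfix _).mpr ⟨y, rfl⟩
  rw [star_add, star_mul, hx, hy, hse, hxy, map_sub, map_mul, map_pow, map_pow, ← he2]
  ring

end Vale.Agent.P011.H896
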