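import Mathlib

/-!
Two facts about a central simple algebra after extension of scalars: the determinant of an
integral matrix is integral, and the centre of a matrix algebra over a quadratic extension
which comes from an algebra with a central square root contains a skew square root.
-/

open Polynomial TensorProduct Module

namespace Vale.Agent.P011.H896

/-- The determinant of a matrix which is integral for a valuation is integral. -/
theorem val_det_le {L Γ E : Type} [Field L] [LinearOrderedCommGroupWithZero Γ]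
    (w : Valuation L Γ) [Field E] [Algebra L E] {n : ℕ} (M : Matrix (Fin n) (Fin n) E)
    {p : L[X]} (hp : p.Monic) (hc : ∀ i, w (p.coeff i) ≤ 1) (h0 : aeval M p = 0) {c : L}
    (hd : algebraMap L E c = M.det) : w c ≤ 1 := by
  classical
  let Ω := AlgebraicClosure E
  let f : E →ₐ[L] Ω := IsScalarTower.toAlgHom L E Ω
  let M' : Matrix (Fin n) (Fin n) Ω := f.mapMatrix M
  have h3 : aeval M' (p.map (algebraMap L Ω)) = 0 := by
    rw [aeval_map_algebraMap]
    change aeval (f.mapMatrix M) p = 0
    rw [aeval_algHom_apply, h0, map_zero]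
  have hroot : ∀ r ∈ M'.charpoly.roots, aeval r p = 0 := by
    intro r hr
    have h1 : r ∈ spectrum Ω M' :=
      Matrix.mem_spectrum_iff_isRoot_charpoly.mpr (isRoot_of_mem_roots hr)
    have h2 : eval r (p.map (algebraMap L Ω)) ∈
        spectrum Ω (aeval M' (p.map (algebraMap L Ω))) :=
      spectrum.subset_polynomial_aeval M' _ ⟨r, h1, rfl⟩
    rw [h3] at h2
    have h4 : (eval r (p.map (algebraMap L Ω)) : Ω) = 0 := by
      by_contra hne
      rw [spectrum.mem_iff, sub_zero] at h2
      exact h2 ((isUnit_iff_ne_zero.mpr hne).map (algebraMap Ω (Matrix (Fin n) (Fin n) Ω)))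
    rwa [eval_map_algebraMap] at h4
  have hcoe : (↑p.coeffs : Set L) ⊆ (w.integer : Set L) := by
    intro a ha
    obtain ⟨i, -, rfl⟩ := mem_coeffs_iff.mp (Finset.mem_coe.mp ha)
    exact hc i
  have hint : ∀ r ∈ M'.charpoly.roots, IsIntegral w.integer r := by
    intro r hr
    refine ⟨p.toSubring w.integer hcoe, (monic_toSubring _ _ _).mpr hp, ?_⟩
    have h5 := hroot r hr
    rw [aeval_def] at h5
    conv_lhs at h5 => rw [← map_toSubring p w.integer hcoe]
    rw [eval₂_map] at h5
    exact h5
  have hdet : IsIntegral w.integer M'.det := by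
    rw [Matrix.det_eq_prod_roots_charpoly]
    exact IsIntegral.multiset_prod hint
  have h6 : M'.det = algebraMap L Ω c := by
    have h7 : M'.det = f M.det := (AlgHom.map_det f M).symm
    rw [h7, ← hd, f.commutes]
  rw [h6] at hdet
  have h8 : IsIntegral w.integer c :=
    (isIntegral_algebraMap_iff (algebraMap L Ω).injective).mp hdet
  exact (Valuation.integer.integers w).mem_of_integral h8

/-- A central square root of `d` becomes a skew square root of `d` in the centre of the matrix
algebra. -/
theorem exists_skew {k L D E : Type} [Field k] [Field L] [Algebra k L] [DivisionRing D]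
    [Algebra k D] {d : k} {t : D} (ht : ∀ x, t * x = x * t) (ht2 : t ^ 2 = algebraMap k D d)
    (hns : t ∉ Set.range (algebraMap k D)) [Field E] [Algebra L E] [StarRing E]
    (hfix : ∀ x : E, star x = x ↔ x ∈ Set.range (algebraMap L E)) {n : ℕ} (hn : 0 < n)
    (ρ : L ⊗[k] D ≃ₐ[L] Matrix (Fin n) (Fin n) E) :
    ∃ e : E, e ^ 2 = algebraMap L E (algebraMap k L d) ∧ star e = -e := by
  have : Nonempty (Fin n) := ⟨⟨0, hn⟩⟩
  have hcen : ∀ X : L ⊗[k] D, X * (1 ⊗ₜ[k] t) = (1 ⊗ₜ[k] t) * X := by
    intro X
    induction X using TensorProduct.induction_on with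
    | zero => rw [zero_mul, mul_zero]
    | tmul a x =>
      rw [Algebra.TensorProduct.tmul_mul_tmul, Algebra.TensorProduct.tmul_mul_tmul, mul_one,
        one_mul, ht]
    | add X Y hX hY => rw [add_mul, mul_add, hX, hY]
  obtain ⟨e, he⟩ : ρ ((1 : L) ⊗ₜ[k] t) ∈ Set.range (Matrix.scalar (Fin n)) := by
    rw [← Matrix.center_eq_range, Semigroup.mem_center_iff]
    intro Y
    obtain ⟨X, rfl⟩ := ρ.surjective Y
    rw [← map_mul, ← map_mul, hcen]
  have hsc : ∀ a : L, ρ (a ⊗ₜ[k] (1 : D)) = Matrix.scalar (Fin n) (algebraMap L E a) := by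
    intro a
    have h1 : (a ⊗ₜ[k] (1 : D)) = algebraMap L (L ⊗[k] D) a := rfl
    rw [h1, ρ.commutes]
    rfl
  have he2 : e ^ 2 = algebraMap L E (algebraMap k L d) := by
    apply (Matrix.scalar_inj (n := Fin n)).mp
    rw [map_pow, he, ← map_pow, Algebra.TensorProduct.tmul_pow, one_pow, ht2, ← hsc]
    congr 1
    rw [Algebra.algebraMap_eq_smul_one (R := k) (A := D), TensorProduct.tmul_smul,
      TensorProduct.smul_tmul', Algebra.algebraMap_eq_smul_one (R := k) (A := L)]
  refine ⟨e, he2, ?_⟩
  have hst : star e * star e = e * e := by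
    have h1 : star (e ^ 2) = e ^ 2 := (hfix _).mpr ⟨_, he2.symm⟩
    rw [sq, star_mul] at h1
    exact h1
  have hor : (star e - e) * (star e + e) = 0 := by linear_combination hst
  rcases mul_eq_zero.mp hor with h | h
  · exfalso
    obtain ⟨r, hr⟩ := (hfix e).mp (sub_eq_zero.mp h)
    have h1 : (1 : L) ⊗ₜ[k] t = r ⊗ₜ[k] (1 : D) := by
      apply ρ.injective
      rw [hsc, hr, he]
    have hmem : t ∉ Submodule.span k {(1 : D)} := by
      rw [Submodule.mem_span_singleton]
      rintro ⟨a, ha⟩
      exact hns ⟨a, by rw [Algebra.algebraMap_eq_smul_one, ha]⟩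
    obtain ⟨g, hg, hg0⟩ := Submodule.exists_dual_map_eq_bot_of_notMem hmem inferInstance
    have hg1 : g 1 = 0 := by
      have h2 : g 1 ∈ (Submodule.span k {(1 : D)}).map g :=
        Submodule.mem_map_of_mem (Submodule.mem_span_singleton_self 1)
      rwa [hg0, Submodule.mem_bot] at h2
    have h3 := congrArg (TensorProduct.rid k L ∘ (TensorProduct.map LinearMap.id g)) h1
    simp only [Function.comp_apply, TensorProduct.map_tmul, LinearMap.id_apply,
      TensorProduct.rid_tmul, hg1, zero_smul] at h3
    rcases smul_eq_zero.mp h3 with h4 | h4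
    · exact hg h4
    · exact one_ne_zero h4
  · exact eq_neg_of_add_eq_zero_left h

end Vale.Agent.P011.H896
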